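import Vale.Agent.P160S.Defs

namespace P160S

open Classical Finset

/-- Number of points satisfying a predicate. -/
noncomputable def cnt {Ω : Type*} [Fintype Ω] (E : Ω → Prop) : ℕ := (univ.filter E).card

theorem cnt_congr {Ω : Type*} [Fintype Ω] {E F : Ω → Prop} (h : ∀ ω, E ω ↔ F ω) :
    cnt E = cnt F := by
  rw [show E = F from funext fun ω => propext (h ω)]

theorem swap_count {κ τ : Type*} [Fintype κ] [DecidableEq κ] [Fintype τ] [DecidableEq τ] (e : τ → κ) (he : Function.Injective e)
    (E F : (κ → Bool) → Prop) (c : ℕ) (hE : ∀ ω x, E (Function.extend e x ω) ↔ E ω)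
    (hF : ∀ ω, E ω → cnt (fun x : τ → Bool => F (Function.extend e x ω)) ≤ c) :
    cnt (fun ω => E ω ∧ F ω) * 2 ^ Fintype.card τ ≤ c * cnt E := by
  let Φ : (κ → Bool) × (τ → Bool) → (κ → Bool) × (τ → Bool) :=
    fun p => (Function.extend e p.2 p.1, p.1 ∘ e)
  have hΦ : Function.Involutive Φ := by
    rintro ⟨ω, x⟩
    refine Prod.ext ?_ ?_
    · funext k
      by_cases hk : ∃ t, e t = k
      · obtain ⟨t, rfl⟩ := hk
        simp only [Φ, he.extend_apply, Function.comp]
      · simp only [Φ, Function.extend_apply' _ _ _ hk]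
    · funext t
      simp only [Φ, Function.comp, he.extend_apply]
  have h1 : ∑ p : (κ → Bool) × (τ → Bool), (if E p.1 ∧ F p.1 then 1 else 0) =
      ∑ p : (κ → Bool) × (τ → Bool), (if E p.1 ∧ F (Function.extend e p.2 p.1) then 1 else 0) := by
    rw [← Equiv.sum_comp hΦ.toPerm]
    refine Finset.sum_congr rfl fun p _ => ?_
    simp only [Function.Involutive.coe_toPerm, Φ, hE]
  rw [Fintype.sum_prod_type, Fintype.sum_prod_type] at h1
  have h2 : cnt (fun ω => E ω ∧ F ω) * 2 ^ Fintype.card τ =
      ∑ ω : κ → Bool, ∑ _x : τ → Bool, (if E ω ∧ F ω then 1 else 0) := by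
    rw [cnt, Finset.card_filter, Finset.sum_mul]
    refine Finset.sum_congr rfl fun ω _ => ?_
    rw [Finset.sum_const, Finset.card_univ, Fintype.card_fun, Fintype.card_bool, smul_eq_mul,
      mul_comm]
    congr
  rw [h2, h1, cnt, Finset.card_filter, Finset.mul_sum]
  refine Finset.sum_le_sum fun ω _ => ?_
  by_cases h : E ω
  · have := hF ω h
    rw [cnt, Finset.card_filter] at this
    simpa [h] using this
  · simp [h]

theorem elo {τ : Type*} [Fintype τ] [DecidableEq τ] (a : τ → ℝ) (ha : ∀ t, a t ≠ 0) (c : ℝ) :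
    cnt (fun x : τ → Bool => ∑ t, (if x t = true then (1 : ℝ) else -1) * a t = c) ≤
      (Fintype.card τ).choose (Fintype.card τ / 2) := by
  let S : (τ → Bool) → Finset τ := fun x => univ.filter fun t => x t = decide (0 < a t)
  have hS : Function.Injective S := by
    intro x y h
    funext t
    have h1 : t ∈ S x ↔ t ∈ S y := by rw [h]
    simp only [S, mem_filter, mem_univ, true_and] at h1
    generalize decide (0 < a t) = b at h1
    revert h1
    cases x t <;> cases y t <;> cases b <;> simp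
  have hterm : ∀ x t, (if x t = true then (1 : ℝ) else -1) * a t =
      if t ∈ S x then |a t| else -|a t| := by
    intro x t
    simp only [S, mem_filter, mem_univ, true_and]
    rcases lt_or_gt_of_ne (ha t) with h | h
    · cases hx : x t <;> simp [not_lt.2 h.le, abs_of_neg h]
    · cases hx : x t <;> simp [h, abs_of_pos h]
  rw [cnt, ← Finset.card_image_of_injective _ hS]
  apply IsAntichain.sperner
  intro A hA B hB hne hsub
  obtain ⟨x, hx, rfl⟩ := Finset.mem_image.1 hA
  obtain ⟨y, hy, rfl⟩ := Finset.mem_image.1 hB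
  have hx := (mem_filter.1 hx).2
  have hy := (mem_filter.1 hy).2
  simp only [hterm] at hx hy
  obtain ⟨t, ht1, ht2⟩ := Finset.exists_of_ssubset (Finset.ssubset_iff_subset_ne.2 ⟨hsub, hne⟩)
  have : ∑ t, (if t ∈ S x then |a t| else -|a t|) < ∑ t, (if t ∈ S y then |a t| else -|a t|) := by
    refine Finset.sum_lt_sum (fun s _ => ?_) ⟨t, mem_univ _, ?_⟩
    · have := abs_nonneg (a s)
      by_cases h1 : s ∈ S x
      · rw [if_pos h1, if_pos (hsub h1)]
      · rw [if_neg h1]; split_ifs <;> linarith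
    · rw [if_neg ht2, if_pos ht1]
      have := abs_pos.2 (ha t)
      linarith
  linarith

variable {n : ℕ}

/-- The block of coordinates in row `j` and columns `T`. -/
def blk (T : Finset (Fin n)) (j : Fin n) : T → Sym2 (Fin n) := fun i => s(j, i)

theorem blk_inj (T : Finset (Fin n)) (j : Fin n) : Function.Injective (blk T j) := by
  intro a b h
  exact Subtype.ext (Sym2.congr_right.1 h)

theorem sgn_extend_row {T : Finset (Fin n)} {j i : Fin n} (hij : i ≠ j) (hi : i ∉ T)
    (ω : Sym2 (Fin n) → Bool) (x : T → Bool) :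
    sgnMat (Function.extend (blk T j) x ω) i = sgnMat ω i := by
  funext k
  simp only [sgnMat]
  rw [Function.extend_apply']
  rintro ⟨t, ht⟩
  rcases Sym2.eq_iff.1 ht with ⟨h, -⟩ | ⟨-, h⟩
  · exact hij h.symm
  · exact hi (h ▸ t.2)

theorem rows (T J : Finset (Fin n)) (hTJ : ∀ j ∈ J, j ∉ T)
    (v : (Sym2 (Fin n) → Bool) → Fin n → ℝ) (hv0 : ∀ ω, ∀ i ∈ T, v ω i ≠ 0)
    (hv : ∀ j ∈ J, ∀ ω x, v (Function.extend (blk T j) x ω) = v ω) :
    cnt (fun ω => ∀ j ∈ J, sgnMat ω j ⬝ᵥ v ω = 0) * (2 ^ T.card) ^ J.card ≤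
      (T.card.choose (T.card / 2)) ^ J.card * Fintype.card (Sym2 (Fin n) → Bool) := by
  induction J using Finset.induction_on with
  | empty => simp [cnt]
  | insert j J hj ih =>
    have ih' := ih (fun i hi => hTJ i (mem_insert_of_mem hi))
      (fun i hi => hv i (mem_insert_of_mem hi))
    have hjT := hTJ j (mem_insert_self _ _)
    have key := swap_count (blk T j) (blk_inj T j)
      (fun ω => ∀ i ∈ J, sgnMat ω i ⬝ᵥ v ω = 0) (fun ω => sgnMat ω j ⬝ᵥ v ω = 0)
      (T.card.choose (T.card / 2)) ?_ ?_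
    · rw [Fintype.card_coe] at key
      have h1 : cnt (fun ω => ∀ i ∈ insert j J, sgnMat ω i ⬝ᵥ v ω = 0) =
          cnt fun ω => (∀ i ∈ J, sgnMat ω i ⬝ᵥ v ω = 0) ∧ sgnMat ω j ⬝ᵥ v ω = 0 := by
        refine cnt_congr fun ω => ?_
        rw [Finset.forall_mem_insert, and_comm]
      rw [h1, Finset.card_insert_of_notMem hj, pow_succ', pow_succ', ← mul_assoc, mul_assoc
        (T.card.choose (T.card / 2))]
      refine (Nat.mul_le_mul_right _ key).trans ?_
      rw [mul_assoc]
      exact Nat.mul_le_mul_left _ ih'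
    · intro ω x
      rw [hv j (mem_insert_self _ _)]
      refine forall₂_congr fun i hi => ?_
      rw [sgn_extend_row (fun h : i = j => hj (h ▸ hi)) (hTJ i (mem_insert_of_mem hi))]
    · intro ω _
      have h2 := elo (fun t : T => v ω t) (fun t => hv0 ω t t.2)
        (-∑ k ∈ Tᶜ, sgnMat ω j k * v ω k)
      rw [Fintype.card_coe] at h2
      refine le_trans (le_of_eq ?_) h2
      refine cnt_congr fun x => ?_
      rw [hv j (mem_insert_self _ _), dotProduct, ← Finset.sum_add_sum_compl T,
        ← Finset.sum_coe_sort T, ← eq_neg_iff_add_eq_zero]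
      have h3 : ∑ k ∈ Tᶜ, sgnMat (Function.extend (blk T j) x ω) j k * v ω k =
          ∑ k ∈ Tᶜ, sgnMat ω j k * v ω k := by
        refine Finset.sum_congr rfl fun k hk => ?_
        simp only [sgnMat]
        rw [Function.extend_apply']
        rintro ⟨t, ht⟩
        exact (Finset.mem_compl.1 hk) ((Sym2.congr_right.1 ht) ▸ t.2)
      have h4 : ∑ t : T, sgnMat (Function.extend (blk T j) x ω) j t * v ω t =
          ∑ t : T, (if x t = true then (1 : ℝ) else -1) * v ω t := by
        refine Finset.sum_congr rfl fun t _ => ?_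
        simp only [sgnMat]
        rw [show s(j, (t : Fin n)) = blk T j t from rfl, (blk_inj T j).extend_apply]
      rw [h3, h4]

end P160S
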