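import Mathlib

namespace P160S

open Classical in
/-- The symmetric sign matrix whose entry at the unordered pair of positions `i`, `j` is `1` or
`-1` according to the bit of that unordered pair (diagonal pairs included). -/
noncomputable def sgnMat {n : ℕ} (ω : Sym2 (Fin n) → Bool) : Matrix (Fin n) (Fin n) ℝ :=
  fun i j => if ω s(i, j) = true then 1 else -1

open Classical in
/-- The probability of a property of the uniformly random symmetric sign matrix. -/
noncomputable def prob (n : ℕ) (E : Matrix (Fin n) (Fin n) ℝ → Prop) : ℝ :=
  ((Finset.univ.filter fun ω : Sym2 (Fin n) → Bool => E (sgnMat ω)).card : ℝ) /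
    Fintype.card (Sym2 (Fin n) → Bool)

end P160S
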