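import Vale.Agent.P160S.Sub

namespace P160S

open Classical Finset Filter

theorem prob_eq (n : ℕ) (E : Matrix (Fin n) (Fin n) ℝ → Prop) :
    prob n E = pr fun ω : Sym2 (Fin n) → Bool => E (sgnMat ω) := rfl

theorem exists_eta (ε : ℝ) (hε : 0 < ε) :
    ∃ η : ℝ, 0 < η ∧ η ≤ 1 ∧ (1 + η) ^ 5 / 2 ≤ 1 / 2 + ε := by
  refine ⟨min 1 (ε / 16), by positivity, min_le_left _ _, ?_⟩
  set η := min 1 (ε / 16)
  have h0 : 0 < η := by positivity
  have h1 : η ≤ 1 := min_le_left _ _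
  have h2 : η ≤ ε / 16 := min_le_right _ _
  have h3 : (1 + η) ^ 2 ≤ 1 + 3 * η := by nlinarith
  have h4 : (1 + η) ^ 4 ≤ 1 + 15 * η := by
    have : (1 + η) ^ 4 = ((1 + η) ^ 2) ^ 2 := by ring
    rw [this]
    refine (pow_le_pow_left₀ (by positivity) h3 2).trans (by nlinarith)
  have h5 : (1 + η) ^ 5 ≤ 1 + 31 * η := by
    rw [pow_succ]
    refine (mul_le_mul_of_nonneg_right h4 (by positivity)).trans (by nlinarith)
  linarith

theorem lin_le (η : ℝ) (hη0 : 0 < η) (n : ℕ) (h2 : 2 / η ^ 2 ≤ (n : ℝ)) :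
    2 * (n : ℝ) + 1 ≤ ((1 + η) ^ 2) ^ n := by
  have hn : (0 : ℝ) < n := lt_of_lt_of_le (by positivity) h2
  have h6 : 1 + n * η ≤ (1 + η) ^ n := one_add_mul_le_pow (by linarith) n
  rw [← pow_mul, mul_comm 2 n, pow_mul]
  rw [div_le_iff₀ (by positivity)] at h2
  refine le_trans ?_ (pow_le_pow_left₀ (by positivity) h6 2)
  nlinarith [mul_pos hn hη0]

theorem aux1 (e c L L' : ℝ) (h1 : c ≤ e) (h0 : 0 ≤ c) (hL0 : 0 ≤ L) (hL : L ≤ L') :
    e * (-L' / 2) ≤ -(L / 2 * c) := by nlinarith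

theorem aux2 (s n γ c l : ℝ) (h1 : s ≤ γ * n) (hc : 0 < c) (h2 : γ * c ≤ l) (hn : 0 < n) :
    s * c ≤ n * l := by nlinarith

theorem aux3 (n l a b κ g : ℝ) (hn : 0 < n) (h : 2 * a - b / 2 * g ≤ l * (b / 2 - κ)) :
    l * (κ * n) + (n * a + -((l + g) / 2 * (b * n))) ≤ n * -a := by nlinarith

theorem main (δ κ ε : ℝ) (hε : 0 < ε) (hκ : 2 * κ < δ) (hκ0 : 0 ≤ κ) :
    ∀ᶠ n : ℕ in atTop, ∀ 𝓕 : Finset (Submodule ℝ (Fin n → ℝ)),
      (𝓕.card : ℝ) ≤ (n : ℝ) ^ (κ * n) →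
      (∀ V ∈ 𝓕, (Module.finrank ℝ V : ℝ) ≤ (1 - δ) * n) →
      prob n (fun A => ∃ V ∈ 𝓕, ∃ v ∈ V, v ≠ 0 ∧ A.mulVec v = 0) ≤ (1 / 2 + ε) ^ n := by
  obtain ⟨η, hη0, hη1, hη⟩ : ∃ η : ℝ, 0 < η ∧ η ≤ 1 ∧ (1 + η) ^ 5 / 2 ≤ 1 / 2 + ε :=
    exists_eta ε hε
  have hc0 : 0 < Real.log (2 / η ^ 2) := by
    apply Real.log_pos
    rw [lt_div_iff₀ (by positivity)]
    nlinarith
  have hl : 0 < Real.log (1 + η) := Real.log_pos (by linarith)
  obtain ⟨γ, hγ0, hγ1, hγ2⟩ : ∃ γ : ℝ, 0 < γ ∧ γ * Real.log (2 / η ^ 2) ≤ Real.log (1 + η) ∧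
      γ ≤ (δ - 2 * κ) / 2 := by
    refine ⟨min (Real.log (1 + η) / Real.log (2 / η ^ 2)) ((δ - 2 * κ) / 2),
      lt_min (by positivity) (by linarith), ?_, min_le_right _ _⟩
    rw [← le_div_iff₀ hc0]
    exact min_le_left _ _
  have ha : 0 < (δ - γ) / 2 - κ := by linarith
  have hcast : Tendsto (fun n : ℕ => (n : ℝ)) atTop atTop := tendsto_natCast_atTop_atTop
  have e1 : ∀ᶠ n : ℕ in atTop, 2 / γ ≤ (n : ℝ) := hcast.eventually_ge_atTop _
  have e2 : ∀ᶠ n : ℕ in atTop, 2 / η ^ 2 ≤ (n : ℝ) := hcast.eventually_ge_atTop _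
  have e3 : ∀ᶠ n : ℕ in atTop, (2 * Real.log 4 - (δ - γ) / 2 * Real.log (γ / 2)) /
      ((δ - γ) / 2 - κ) ≤ Real.log n :=
    (Real.tendsto_log_atTop.comp hcast).eventually_ge_atTop _
  filter_upwards [e1, e2, e3] with n h1 h2 h3 𝓕 hF hV
  have hn : (0 : ℝ) < n := lt_of_lt_of_le (by positivity) h1
  rw [div_le_iff₀ hγ0] at h1
  rw [div_le_iff₀ ha] at h3
  set s := ⌊γ * n⌋₊ with hs
  have hs1 : (s : ℝ) ≤ γ * n := Nat.floor_le (by positivity)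
  have hs2 : γ * n < s + 1 := Nat.lt_floor_add_one _
  set m := s / 2 with hm
  have hm1 : ((2 * m : ℕ) : ℝ) ≤ s := by exact_mod_cast (by omega : 2 * m ≤ s)
  have hm2 : (s : ℝ) ≤ 2 * m + 1 := by exact_mod_cast (by omega : s ≤ 2 * m + 1)
  set L := Real.log (γ * n / 2) with hL
  have hL0 : 0 ≤ L := Real.log_nonneg (by linarith)
  have hL1 : L ≤ Real.log (2 * m + 1) := Real.log_le_log (by positivity) (by linarith)
  have hL2 : L = Real.log n + Real.log (γ / 2) := by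
    rw [hL, ← Real.log_mul hn.ne' (by positivity)]; congr 1; ring
  have hd := dense 𝓕 (2 * m) (Real.exp (-(L / 2 * ((δ - γ) * n)))) (Real.exp_pos _).le (by
    intro V hVm
    refine (pow_le_pow_left₀ (rho_nonneg _) (rho_even m) _).trans ?_
    rw [← Real.exp_nat_mul, Real.exp_le_exp]
    have h4 : (n : ℝ) ≤ ((n - 2 * m - Module.finrank ℝ V : ℕ) : ℝ) + (2 * m : ℕ) +
        (Module.finrank ℝ V : ℕ) := by
      exact_mod_cast (by omega : n ≤ n - 2 * m - Module.finrank ℝ V + 2 * m + Module.finrank ℝ V)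
    have h5 := hV V hVm
    have h6 : (δ - γ) * n ≤ ((n - 2 * m - Module.finrank ℝ V : ℕ) : ℝ) := by linarith
    have h7 : 0 ≤ (δ - γ) * n := mul_nonneg (by linarith) hn.le
    exact aux1 _ _ _ _ h6 h7 hL0 hL1)
  have hsp := sparse (n := n) s η hη0 hη1
  have hsp2 : (2 / η ^ 2) ^ s ≤ (1 + η) ^ n := by
    rw [← Real.exp_log (show 0 < 2 / η ^ 2 by positivity), ← Real.exp_nat_mul,
      ← Real.exp_log (show 0 < 1 + η by positivity), ← Real.exp_nat_mul, Real.exp_le_exp]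
    exact aux2 _ _ _ _ _ hs1 hc0 hγ1 hn
  have hd2 : (𝓕.card : ℝ) * (2 ^ n * (2 ^ n * Real.exp (-(L / 2 * ((δ - γ) * n))))) ≤
      ((1 + η) ^ 3 / 2) ^ n := by
    have h4 : (1 / 4 : ℝ) ^ n ≤ ((1 + η) ^ 3 / 2) ^ n := by
      refine pow_le_pow_left₀ (by norm_num) ?_ n
      have : 1 ≤ (1 + η) ^ 3 := one_le_pow₀ (by linarith)
      linarith
    refine (mul_le_mul_of_nonneg_right hF (by positivity)).trans (le_trans ?_ h4)
    have h5 : (2 : ℝ) ^ n * 2 ^ n = Real.exp (n * Real.log 4) := by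
      rw [Real.exp_nat_mul, Real.exp_log (by norm_num), ← mul_pow]; norm_num
    have h6 : (1 / 4 : ℝ) ^ n = Real.exp (n * (-Real.log 4)) := by
      rw [Real.exp_nat_mul, Real.exp_neg, Real.exp_log (by norm_num)]; norm_num
    rw [← mul_assoc (2 ^ n : ℝ), h5, h6, Real.rpow_def_of_pos hn, ← Real.exp_add, ← Real.exp_add,
      Real.exp_le_exp, hL2]
    exact aux3 _ _ _ _ _ _ hn h3
  rw [prob_eq]
  refine le_trans (pr_mono (F := fun ω => (∃ v : Fin n → ℝ, v ≠ 0 ∧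
        (univ.filter fun i => v i ≠ 0).card ≤ s ∧ (sgnMat ω).mulVec v = 0) ∨
      (∃ V ∈ 𝓕, ∃ v ∈ V,
        2 * m ≤ (univ.filter fun i => v i ≠ 0).card ∧ (sgnMat ω).mulVec v = 0)) ?_)
    ((pr_or _ _).trans ?_)
  · rintro ω ⟨V, hVm, v, hv, hv0, h0⟩
    by_cases h : (univ.filter fun i => v i ≠ 0).card ≤ s
    · exact Or.inl ⟨v, hv0, h, h0⟩
    · exact Or.inr ⟨V, hVm, v, hv, by omega, h0⟩
  · have h4 : 2 * n * ((1 + η) ^ 2 / 2) ^ n * (2 / η ^ 2) ^ s ≤ 2 * n * ((1 + η) ^ 3 / 2) ^ n := by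
      refine (mul_le_mul_of_nonneg_left hsp2 (by positivity)).trans (le_of_eq ?_)
      rw [mul_assoc, ← mul_pow]; congr 2; ring
    have h5 := lin_le η hη0 n h2
    calc _ ≤ 2 * n * ((1 + η) ^ 3 / 2) ^ n + ((1 + η) ^ 3 / 2) ^ n :=
          add_le_add (hsp.trans h4) (hd.trans hd2)
      _ = (2 * n + 1) * ((1 + η) ^ 3 / 2) ^ n := by ring
      _ ≤ ((1 + η) ^ 2) ^ n * ((1 + η) ^ 3 / 2) ^ n :=
          mul_le_mul_of_nonneg_right h5 (by positivity)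
      _ = ((1 + η) ^ 5 / 2) ^ n := by rw [← mul_pow]; congr 1; ring
      _ ≤ (1 / 2 + ε) ^ n := pow_le_pow_left₀ (by positivity) hη n

theorem prob_mono {n : ℕ} {E F : Matrix (Fin n) (Fin n) ℝ → Prop} (h : ∀ A, E A → F A) :
    prob n E ≤ prob n F := by
  rw [prob_eq, prob_eq]
  exact pr_mono fun ω => h _

theorem supp_main (δ ε : ℝ) (hδ : 0 < δ) (hε : 0 < ε) :
    ∀ᶠ n : ℕ in atTop, prob n (fun A => ∃ v : Fin n → ℝ, v ≠ 0 ∧
      (({i | v i ≠ 0} : Set (Fin n)).ncard : ℝ) ≤ (1 - δ) * n ∧ A.mulVec v = 0) ≤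
        (1 / 2 + ε) ^ n := by
  have e1 : ∀ᶠ n : ℕ in atTop, 2 ≤ (n : ℝ) ^ (δ / 4) :=
    ((tendsto_rpow_atTop (by positivity)).comp tendsto_natCast_atTop_atTop).eventually_ge_atTop _
  filter_upwards [main δ (δ / 4) ε hε (by linarith) (by positivity), e1] with n h h1
  refine le_trans (prob_mono ?_) (h ((univ.filter fun S : Finset (Fin n) =>
    (S.card : ℝ) ≤ (1 - δ) * n).image suppSub) ?_ ?_)
  · rintro A ⟨v, hv, hs, h0⟩
    refine ⟨_, Finset.mem_image.2 ⟨_, mem_filter.2 ⟨mem_univ _, ?_⟩, rfl⟩, v, mem_suppSub v, hv, h0⟩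
    rw [← Set.ncard_coe_finset, Finset.coe_filter_univ]
    exact hs
  · have h2 := (Finset.card_image_le (f := suppSub)).trans
      (Finset.card_le_univ (univ.filter fun S : Finset (Fin n) => (S.card : ℝ) ≤ (1 - δ) * n))
    rw [Fintype.card_finset, Fintype.card_fin] at h2
    rw [Real.rpow_mul (Nat.cast_nonneg n), Real.rpow_natCast]
    refine le_trans ?_ (pow_le_pow_left₀ (by norm_num) h1 n)
    exact_mod_cast h2
  · intro V hV
    obtain ⟨S, hS, rfl⟩ := Finset.mem_image.1 hV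
    exact (Nat.cast_le.2 (finrank_suppSub S)).trans (mem_filter.1 hS).2

theorem val_main (κ ε : ℝ) (hκ0 : 0 ≤ κ) (hκ : κ < 1 / 2) (hε : 0 < ε) :
    ∀ᶠ n : ℕ in atTop, prob n (fun A => ∃ v : Fin n → ℝ, v ≠ 0 ∧
      ((Set.range v).ncard : ℝ) ≤ (n : ℝ) ^ κ ∧ A.mulVec v = 0) ≤ (1 / 2 + ε) ^ n := by
  have e1 : ∀ᶠ n : ℕ in atTop, 1 / (1 / 2 - κ) ≤ (n : ℝ) ^ (1 - κ) :=
    ((tendsto_rpow_atTop (by linarith)).comp tendsto_natCast_atTop_atTop).eventually_ge_atTop _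
  filter_upwards [main (κ + 1 / 2) κ ε hε (by linarith) hκ0, e1, eventually_gt_atTop 0]
    with n h h1 hn
  have hn' : (0 : ℝ) < n := by exact_mod_cast hn
  set L := ⌊(n : ℝ) ^ κ⌋₊ with hL
  have hL1 : (L : ℝ) ≤ (n : ℝ) ^ κ := Nat.floor_le (by positivity)
  refine le_trans (prob_mono ?_) (h ((univ : Finset (Fin n → Fin L)).image
    fun π => LinearMap.range (LinearMap.funLeft ℝ ℝ π)) ?_ ?_)
  · rintro A ⟨v, hv, hs, h0⟩
    haveI := Fintype.ofFinite (Set.range v)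
    have hc : Fintype.card (Set.range v) ≤ Fintype.card (Fin L) := by
      rw [Fintype.card_fin, ← Nat.card_eq_fintype_card, Nat.card_coe_set_eq]
      exact Nat.le_floor hs
    obtain ⟨e⟩ := Function.Embedding.nonempty_of_card_le hc
    haveI : Nonempty (Set.range v) := ⟨⟨_, ⟨0, hn⟩, rfl⟩⟩
    refine ⟨_, Finset.mem_image.2 ⟨fun i => e ⟨v i, i, rfl⟩, mem_univ _, rfl⟩, v,
      ⟨fun l => (Function.invFun e l : Set.range v), funext fun i => ?_⟩, hv, h0⟩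
    exact congrArg Subtype.val (Function.leftInverse_invFun e.injective ⟨v i, i, rfl⟩)
  · refine le_trans (Nat.cast_le.2 Finset.card_image_le) ?_
    rw [Finset.card_univ, Fintype.card_fun, Fintype.card_fin, Fintype.card_fin,
      Real.rpow_mul (Nat.cast_nonneg n), Real.rpow_natCast]
    push_cast
    exact pow_le_pow_left₀ (Nat.cast_nonneg _) hL1 n
  · intro V hV
    obtain ⟨π, -, rfl⟩ := Finset.mem_image.1 hV
    have h2 : Module.finrank ℝ (LinearMap.range (LinearMap.funLeft ℝ ℝ π)) ≤ L :=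
      (LinearMap.finrank_range_le _).trans (by simp)
    refine (Nat.cast_le.2 h2).trans (hL1.trans ?_)
    have h3 : (n : ℝ) ^ κ * (n : ℝ) ^ (1 - κ) = n := by
      rw [← Real.rpow_add hn']; simp
    rw [div_le_iff₀ (by linarith)] at h1
    have h4 : 0 < (n : ℝ) ^ κ := by positivity
    calc (n : ℝ) ^ κ = (n : ℝ) ^ κ * 1 := (mul_one _).symm
      _ ≤ (n : ℝ) ^ κ * ((n : ℝ) ^ (1 - κ) * (1 / 2 - κ)) := mul_le_mul_of_nonneg_left h1 h4.le
      _ = (1 - (κ + 1 / 2)) * n := by rw [← mul_assoc, h3]; ring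

end P160S
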