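import Vale.Agent.P160S.Count

namespace P160S

open Classical Finset

/-- Uniform probability. -/
noncomputable def pr {Ω : Type*} [Fintype Ω] (E : Ω → Prop) : ℝ := (cnt E : ℝ) / Fintype.card Ω

theorem pr_mono {Ω : Type*} [Fintype Ω] {E F : Ω → Prop} (h : ∀ ω, E ω → F ω) : pr E ≤ pr F := by
  refine div_le_div_of_nonneg_right (Nat.cast_le.2 (Finset.card_le_card fun ω hω => ?_))
    (Nat.cast_nonneg _)
  simp only [mem_filter, mem_univ, true_and] at hω ⊢
  exact h ω hω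

theorem pr_or {Ω : Type*} [Fintype Ω] (E F : Ω → Prop) :
    pr (fun ω => E ω ∨ F ω) ≤ pr E + pr F := by
  rw [pr, pr, pr, ← add_div]
  refine div_le_div_of_nonneg_right ?_ (Nat.cast_nonneg _)
  rw [← Nat.cast_add, Nat.cast_le]
  refine le_trans (Finset.card_le_card fun ω hω => ?_) (Finset.card_union_le _ _)
  simp only [mem_filter, mem_univ, true_and, mem_union] at hω ⊢
  exact hω

theorem pr_exists {Ω ι : Type*} [Fintype Ω] (s : Finset ι) (E : ι → Ω → Prop) (b : ℝ)
    (h : ∀ i ∈ s, pr (E i) ≤ b) : pr (fun ω => ∃ i ∈ s, E i ω) ≤ s.card * b := by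
  induction s using Finset.induction_on with
  | empty => simp [pr, cnt]
  | insert a s ha ih =>
    refine (pr_mono (F := fun ω => E a ω ∨ ∃ i ∈ s, E i ω) fun ω hω => by simpa using hω).trans ?_
    refine (pr_or _ _).trans ?_
    rw [Finset.card_insert_of_notMem ha]
    have h1 := h a (mem_insert_self _ _)
    have h2 := ih fun i hi => h i (mem_insert_of_mem hi)
    push_cast
    linarith

variable {n : ℕ}

/-- The concentration bound for `t` signs. -/
noncomputable def rho (t : ℕ) : ℝ := (t.choose (t / 2) : ℝ) / 2 ^ t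

theorem rho_nonneg (t : ℕ) : 0 ≤ rho t := by unfold rho; positivity

theorem rho_le_one (t : ℕ) : rho t ≤ 1 := by
  rw [rho, div_le_one (by positivity)]
  exact_mod_cast Nat.choose_le_two_pow t (t / 2)

theorem exists_rows (V : Submodule ℝ (Fin n → ℝ)) (T : Finset (Fin n))
    (A : Matrix (Fin n) (Fin n) ℝ) :
    ∃ I : Finset (Fin n), I.card ≤ Module.finrank ℝ V ∧ (∀ i ∈ I, i ∉ T) ∧
      ∀ w ∈ V, (∀ i ∈ I, A i ⬝ᵥ w = 0) → ∀ j ∉ T, A j ⬝ᵥ w = 0 := by
  let φ : {i // i ∉ T} → Module.Dual ℝ V := fun i =>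
    ((LinearMap.proj (i : Fin n)).comp A.mulVecLin).comp V.subtype
  have hφ : ∀ i (w : V), φ i w = A i ⬝ᵥ (w : Fin n → ℝ) := fun i w => rfl
  obtain ⟨κ, a, ha, hsp, hli⟩ := exists_linearIndependent' ℝ φ
  haveI : Finite κ := Finite.of_injective a ha
  haveI := Fintype.ofFinite κ
  refine ⟨univ.image fun k => (a k : Fin n), ?_, ?_, ?_⟩
  · refine Finset.card_image_le.trans ?_
    rw [Finset.card_univ, ← Subspace.dual_finrank_eq]
    exact hli.fintype_card_le_finrank
  · intro i hi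
    obtain ⟨k, -, rfl⟩ := Finset.mem_image.1 hi
    exact (a k).2
  · intro w hw h j hj
    have h1 : Submodule.span ℝ (Set.range (φ ∘ a)) ≤
        LinearMap.ker (Module.Dual.eval ℝ V ⟨w, hw⟩) := by
      rw [Submodule.span_le]
      rintro _ ⟨k, rfl⟩
      exact h _ (Finset.mem_image.2 ⟨k, mem_univ _, rfl⟩)
    rw [hsp] at h1
    exact h1 (Submodule.subset_span ⟨⟨j, hj⟩, rfl⟩)

/-- A canonical witness. -/
noncomputable def wit (p : (Fin n → ℝ) → Prop) : Fin n → ℝ :=
  if h : ∃ v, p v then h.choose else fun _ => 1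

theorem fixed (V : Submodule ℝ (Fin n → ℝ)) (T : Finset (Fin n)) (D : ℕ)
    (hD : Module.finrank ℝ V ≤ D) :
    pr (fun ω : Sym2 (Fin n) → Bool =>
        ∃ v ∈ V, (∀ i ∈ T, v i ≠ 0) ∧ (sgnMat ω).mulVec v = 0) ≤
      (univ.filter fun I : Finset (Fin n) => I.card ≤ D).card * rho T.card ^ (n - T.card - D) := by
  let v : Finset (Fin n) → (Sym2 (Fin n) → Bool) → Fin n → ℝ := fun I ω =>
    wit fun w => w ∈ V ∧ (∀ i ∈ T, w i ≠ 0) ∧ ∀ i ∈ I, sgnMat ω i ⬝ᵥ w = 0
  refine le_trans (pr_mono (F := fun ω => ∃ I ∈ univ.filter fun I : Finset (Fin n) => I.card ≤ D,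
    (∀ i ∈ I, i ∉ T) ∧ ∀ j ∈ (T ∪ I)ᶜ, sgnMat ω j ⬝ᵥ v I ω = 0) ?_) (pr_exists _ _ _ ?_)
  · rintro ω ⟨w, hw, hwT, hw0⟩
    obtain ⟨I, h1, h2, h3⟩ := exists_rows V T (sgnMat ω)
    refine ⟨I, mem_filter.2 ⟨mem_univ _, h1.trans hD⟩, h2, fun j hj => ?_⟩
    have hex : ∃ w, w ∈ V ∧ (∀ i ∈ T, w i ≠ 0) ∧ ∀ i ∈ I, sgnMat ω i ⬝ᵥ w = 0 :=
      ⟨w, hw, hwT, fun i _ => congrFun hw0 i⟩
    have h4 := hex.choose_spec
    simp only [v, wit, dif_pos hex]
    exact h3 _ h4.1 h4.2.2 j fun h => (Finset.mem_compl.1 hj) (mem_union_left _ h)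
  · intro I hI
    have hI := (mem_filter.1 hI).2
    by_cases hIT : ∀ i ∈ I, i ∉ T
    · refine (pr_mono (F := fun ω => ∀ j ∈ (T ∪ I)ᶜ, sgnMat ω j ⬝ᵥ v I ω = 0)
        fun ω h => h.2).trans ?_
      have key := rows T (T ∪ I)ᶜ (fun j hj h => (Finset.mem_compl.1 hj) (mem_union_left _ h))
        (v I) ?_ ?_
      · have hc : n - T.card - D ≤ (T ∪ I)ᶜ.card := by
          rw [Finset.card_compl, Fintype.card_fin]
          have := Finset.card_union_le T I
          omega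
        refine le_trans ?_ (pow_le_pow_of_le_one (rho_nonneg _) (rho_le_one _) hc)
        rw [pr, rho, div_pow, div_le_div_iff₀ (by exact_mod_cast Fintype.card_pos) (by positivity)]
        exact_mod_cast key
      · intro ω i hi
        simp only [v, wit]
        split_ifs with hex
        · exact hex.choose_spec.2.1 i hi
        · exact one_ne_zero
      · intro j hj ω x
        simp only [v]
        congr 1
        funext w
        refine propext (and_congr_right fun _ => and_congr_right fun _ =>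
          forall₂_congr fun i hi => ?_)
        rw [sgn_extend_row (fun h : i = j => (Finset.mem_compl.1 hj)
          (mem_union_right _ (h ▸ hi))) (hIT i hi)]
    · refine (pr_mono (F := fun _ => False) fun ω h => hIT h.1).trans ?_
      have : pr (fun _ : Sym2 (Fin n) → Bool => False) = 0 := by simp [pr, cnt]
      rw [this]
      exact pow_nonneg (rho_nonneg _) _

theorem card_small (D : ℕ) (x : ℝ) (hx : 0 < x) (hx1 : x ≤ 1) :
    ((univ.filter fun I : Finset (Fin n) => I.card ≤ D).card : ℝ) ≤ (1 + x) ^ n / x ^ D := by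
  rw [le_div_iff₀ (by positivity)]
  have h1 := Finset.prod_one_add (f := fun _ : Fin n => x) univ
  rw [Finset.prod_const, Finset.card_univ, Fintype.card_fin, Finset.powerset_univ] at h1
  rw [h1, ← nsmul_eq_mul, ← Finset.sum_const]
  refine le_trans (Finset.sum_le_sum fun I hI => ?_)
    (Finset.sum_le_sum_of_subset_of_nonneg (Finset.filter_subset _ _) fun I _ _ => by positivity)
  rw [Finset.prod_const]
  exact pow_le_pow_of_le_one hx.le hx1 (mem_filter.1 hI).2

theorem rho_one : rho 1 = 1 / 2 := by simp [rho]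

theorem cb_sq (m : ℕ) : m.centralBinom ^ 2 * (2 * m + 1) ≤ 16 ^ m := by
  induction m with
  | zero => simp
  | succ m ih =>
    have h := Nat.succ_mul_centralBinom_succ m
    have h1 : (m + 1) ^ 2 * ((m + 1).centralBinom ^ 2 * (2 * (m + 1) + 1)) ≤
        (m + 1) ^ 2 * 16 ^ (m + 1) := by
      calc (m + 1) ^ 2 * ((m + 1).centralBinom ^ 2 * (2 * (m + 1) + 1))
          = ((m + 1) * (m + 1).centralBinom) ^ 2 * (2 * m + 3) := by ring
        _ = 4 * ((2 * m + 1) * (2 * m + 3)) * (m.centralBinom ^ 2 * (2 * m + 1)) := by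
          rw [h]; ring
        _ ≤ 4 * (4 * (m + 1) ^ 2) * 16 ^ m :=
          Nat.mul_le_mul (Nat.mul_le_mul_left _ (by nlinarith)) ih
        _ = (m + 1) ^ 2 * 16 ^ (m + 1) := by ring
    exact Nat.le_of_mul_le_mul_left h1 (by positivity)

theorem rho_even (m : ℕ) : rho (2 * m) ≤ Real.exp (-Real.log (2 * m + 1) / 2) := by
  have h1 : rho (2 * m) ^ 2 ≤ (2 * m + 1 : ℝ)⁻¹ := by
    rw [rho, Nat.mul_div_cancel_left _ (by norm_num : 0 < 2), ← Nat.centralBinom_eq_two_mul_choose,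
      div_pow, div_le_iff₀ (by positivity), ← pow_mul, inv_mul_eq_div, le_div_iff₀ (by positivity)]
    have h2 : (2 : ℝ) ^ (2 * m * 2) = 16 ^ m := by
      rw [show (16 : ℝ) = 2 ^ 4 by norm_num, ← pow_mul]; ring_nf
    rw [h2]
    exact_mod_cast cb_sq m
  refine (pow_le_pow_iff_left₀ (rho_nonneg _) (Real.exp_pos _).le two_ne_zero).1 (h1.trans ?_)
  rw [← Real.exp_nat_mul, show ((2 : ℕ) : ℝ) * (-Real.log (2 * m + 1) / 2) =
    -Real.log (2 * m + 1) by push_cast; ring, Real.exp_neg, Real.exp_log (by positivity)]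

/-- Vectors supported in `S`. -/
noncomputable def suppSub (S : Finset (Fin n)) : Submodule ℝ (Fin n → ℝ) :=
  LinearMap.range (LinearMap.pi fun i : Fin n =>
    if h : i ∈ S then (LinearMap.proj (⟨i, h⟩ : S) : (S → ℝ) →ₗ[ℝ] ℝ) else 0)

theorem finrank_suppSub (S : Finset (Fin n)) : Module.finrank ℝ (suppSub S) ≤ S.card := by
  refine (LinearMap.finrank_range_le _).trans ?_
  simp

theorem mem_suppSub (v : Fin n → ℝ) : v ∈ suppSub (univ.filter fun i => v i ≠ 0) := by
  refine ⟨fun i => v i, funext fun i => ?_⟩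
  rw [LinearMap.pi_apply]
  split_ifs with h
  · rfl
  · simp only [mem_filter, mem_univ, true_and, not_not] at h
    simp [h]

theorem sparse (s : ℕ) (x : ℝ) (hx : 0 < x) (hx1 : x ≤ 1) :
    pr (fun ω : Sym2 (Fin n) → Bool => ∃ v : Fin n → ℝ, v ≠ 0 ∧
        (univ.filter fun i => v i ≠ 0).card ≤ s ∧ (sgnMat ω).mulVec v = 0) ≤
      2 * n * ((1 + x) ^ 2 / 2) ^ n * (2 / x ^ 2) ^ s := by
  have hN := card_small (n := n) s x hx hx1
  refine le_trans (pr_mono (F := fun ω => ∃ S ∈ univ.filter fun I : Finset (Fin n) => I.card ≤ s,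
    ∃ i ∈ (univ : Finset (Fin n)), ∃ v ∈ suppSub S, (∀ k ∈ ({i} : Finset (Fin n)), v k ≠ 0) ∧
      (sgnMat ω).mulVec v = 0) ?_) ((pr_exists _ _
        (n * ((1 + x) ^ n / x ^ s * (2 * 2 ^ s / 2 ^ n))) ?_).trans ?_)
  · rintro ω ⟨v, hv, hs, h0⟩
    obtain ⟨i, hi⟩ := Function.ne_iff.1 hv
    exact ⟨_, mem_filter.2 ⟨mem_univ _, hs⟩, i, mem_univ _, v, mem_suppSub v,
      by simpa using hi, h0⟩
  · intro S hS
    refine (pr_exists _ _ ((1 + x) ^ n / x ^ s * (2 * 2 ^ s / 2 ^ n)) fun i _ => ?_).trans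
      (by simp)
    refine (fixed _ _ s ((finrank_suppSub S).trans (mem_filter.1 hS).2)).trans ?_
    refine mul_le_mul hN ?_ (pow_nonneg (rho_nonneg _) _) (by positivity)
    rw [Finset.card_singleton, rho_one, one_div, inv_pow, inv_eq_one_div,
      div_le_div_iff₀ (by positivity) (by positivity), one_mul, ← pow_succ', ← pow_add]
    exact pow_le_pow_right₀ (by norm_num) (by omega)
  · refine (mul_le_mul_of_nonneg_right hN (by positivity)).trans (le_of_eq ?_)
    rw [div_pow, div_pow, ← pow_mul, ← pow_mul]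
    field_simp
    ring

theorem dense (𝓕 : Finset (Submodule ℝ (Fin n → ℝ))) (t : ℕ) (b : ℝ) (hb : 0 ≤ b)
    (h : ∀ V ∈ 𝓕, rho t ^ (n - t - Module.finrank ℝ V) ≤ b) :
    pr (fun ω : Sym2 (Fin n) → Bool => ∃ V ∈ 𝓕, ∃ v ∈ V,
        t ≤ (univ.filter fun i => v i ≠ 0).card ∧ (sgnMat ω).mulVec v = 0) ≤
      𝓕.card * (2 ^ n * (2 ^ n * b)) := by
  have hc : ∀ p : Finset (Finset (Fin n)), (p.card : ℝ) ≤ 2 ^ n := by
    intro p
    have := Finset.card_le_univ p
    rw [Fintype.card_finset, Fintype.card_fin] at this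
    exact_mod_cast this
  refine pr_exists _ _ _ fun V hV => ?_
  refine le_trans (pr_mono (F := fun ω => ∃ T ∈ univ.filter fun I : Finset (Fin n) => I.card = t,
    ∃ v ∈ V, (∀ k ∈ T, v k ≠ 0) ∧ (sgnMat ω).mulVec v = 0) ?_)
    ((pr_exists _ _ (2 ^ n * b) ?_).trans ?_)
  · rintro ω ⟨v, hv, ht, h0⟩
    obtain ⟨T, hT, hT'⟩ := Finset.exists_subset_card_eq ht
    exact ⟨T, mem_filter.2 ⟨mem_univ _, hT'⟩, v, hv, fun k hk => (mem_filter.1 (hT hk)).2, h0⟩
  · intro T hT
    refine (fixed V T _ le_rfl).trans ?_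
    rw [(mem_filter.1 hT).2]
    refine mul_le_mul ?_ (h V hV) (pow_nonneg (rho_nonneg _) _) (by positivity)
    exact hc _
  · refine mul_le_mul_of_nonneg_right ?_ (by positivity)
    exact hc _

end P160S
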